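import Mathlib

/-!
P248 (helper242): Saint-Raymond's inequality for anti-blocking bodies (Meyer's proof).
-/

open MeasureTheory Set

namespace Vale.Agent.P248.H242

/-- Closed convex anti-blocking bodies of the nonnegative orthant. -/
structure AB {p : ℕ} (A : Set (Fin p → ℝ)) : Prop where
  pos : ∀ x ∈ A, ∀ i, 0 ≤ x i
  down : ∀ x ∈ A, ∀ y : Fin p → ℝ, (∀ i, 0 ≤ y i) → (∀ i, y i ≤ x i) → y ∈ A
  conv : Convex ℝ A
  closed : IsClosed A
  bdd : ∃ R : ℝ, 0 < R ∧ ∀ x ∈ A, ∀ i, x i ≤ R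
  fat : ∃ r : ℝ, 0 < r ∧ (fun _ => r) ∈ A

/-- the polar in the orthant -/
def pol {p : ℕ} (A : Set (Fin p → ℝ)) : Set (Fin p → ℝ) :=
  {y | (∀ i, 0 ≤ y i) ∧ ∀ x ∈ A, ∑ i, x i * y i ≤ 1}

theorem AB.polar {p : ℕ} {A : Set (Fin p → ℝ)} (h : AB A) : AB (pol A) := by
  refine ⟨fun x hx => hx.1, ?_, ?_, ?_, ?_, ?_⟩
  · rintro x ⟨hx1, hx2⟩ y hy0 hyx
    refine ⟨hy0, fun z hz => le_trans (Finset.sum_le_sum fun i _ => ?_) (hx2 z hz)⟩
    exact mul_le_mul_of_nonneg_left (hyx i) (h.pos z hz i)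
  · rintro x ⟨hx1, hx2⟩ y ⟨hy1, hy2⟩ a b ha hb hab
    refine ⟨fun i => ?_, fun z hz => ?_⟩
    · have h1 := mul_nonneg ha (hx1 i)
      have h2 := mul_nonneg hb (hy1 i)
      simp only [Pi.add_apply, Pi.smul_apply, smul_eq_mul]
      linarith
    · have e : ∑ i, z i * (a • x + b • y) i = a * ∑ i, z i * x i + b * ∑ i, z i * y i := by
        rw [Finset.mul_sum, Finset.mul_sum, ← Finset.sum_add_distrib]
        refine Finset.sum_congr rfl fun i _ => ?_
        simp only [Pi.add_apply, Pi.smul_apply, smul_eq_mul]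
        ring
      rw [e]
      have h1 := mul_le_mul_of_nonneg_left (hx2 z hz) ha
      have h2 := mul_le_mul_of_nonneg_left (hy2 z hz) hb
      linarith
  · have e : pol A = (⋂ i, {y | 0 ≤ y i}) ∩ ⋂ x ∈ A, {y | ∑ i, x i * y i ≤ 1} := by
      ext y
      simp [pol]
    rw [e]
    refine (isClosed_iInter fun i => isClosed_le continuous_const (continuous_apply i)).inter ?_
    refine isClosed_iInter fun x => isClosed_iInter fun _ => ?_
    exact isClosed_le (by fun_prop) continuous_const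
  · obtain ⟨r, hr, hrA⟩ := h.fat
    refine ⟨1 / r, by positivity, fun y hy i => ?_⟩
    have h1 := hy.2 _ hrA
    have h2 : r * y i ≤ ∑ j, r * y j :=
      Finset.single_le_sum (f := fun j => r * y j) (fun j _ => mul_nonneg hr.le (hy.1 j))
        (Finset.mem_univ i)
    rw [le_div_iff₀ hr]
    linarith [mul_comm r (y i)]
  · obtain ⟨R, hR, hRA⟩ := h.bdd
    refine ⟨1 / (((p : ℝ) + 1) * R), by positivity, fun i => by positivity, fun x hx => ?_⟩
    have h1 : ∑ i, x i * (1 / (((p : ℝ) + 1) * R)) ≤ ∑ _i : Fin p, R * (1 / (((p : ℝ) + 1) * R)) :=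
      Finset.sum_le_sum fun i _ => mul_le_mul_of_nonneg_right (hRA x hx i) (by positivity)
    refine h1.trans ?_
    rw [Finset.sum_const, Finset.card_univ, Fintype.card_fin, nsmul_eq_mul]
    have e : (p : ℝ) * (R * (1 / (((p : ℝ) + 1) * R))) = p / (p + 1) := by
      field_simp
    rw [e, div_le_one (by positivity)]
    linarith

/-- insertion of a zero -/
def ins {n : ℕ} (i : Fin (n + 1)) (z : Fin n → ℝ) : Fin (n + 1) → ℝ :=
  Fin.insertNth (α := fun _ => ℝ) i 0 z

theorem ins_self {n : ℕ} (i : Fin (n + 1)) (z : Fin n → ℝ) : ins i z i = 0 := by simp [ins]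

theorem ins_succ {n : ℕ} (i : Fin (n + 1)) (z : Fin n → ℝ) (j : Fin n) :
    ins i z (i.succAbove j) = z j := by simp [ins]

/-- section at `x i = 0` -/
def sec {n : ℕ} (i : Fin (n + 1)) (A : Set (Fin (n + 1) → ℝ)) : Set (Fin n → ℝ) :=
  {z | ins i z ∈ A}

theorem sum_ins {n : ℕ} (i : Fin (n + 1)) (x : Fin (n + 1) → ℝ) (y : Fin n → ℝ) :
    ∑ k, x k * ins i y k = ∑ j, x (i.succAbove j) * y j := by
  rw [Fin.sum_univ_succAbove _ i, ins_self, mul_zero, zero_add]
  exact Finset.sum_congr rfl fun j _ => by rw [ins_succ]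

theorem cont_ins {n : ℕ} (i : Fin (n + 1)) : Continuous (ins i : (Fin n → ℝ) → _) := by
  refine continuous_pi fun k => ?_
  rcases Fin.eq_self_or_eq_succAbove i k with rfl | ⟨j, rfl⟩
  · simp only [ins_self]
    exact continuous_const
  · simp only [ins_succ]
    exact continuous_apply j

theorem ins_le {n : ℕ} {i : Fin (n + 1)} {z : Fin n → ℝ} {x : Fin (n + 1) → ℝ} (h0 : 0 ≤ x i)
    (h : ∀ j, z j ≤ x (i.succAbove j)) (k : Fin (n + 1)) : ins i z k ≤ x k := by
  rcases Fin.eq_self_or_eq_succAbove i k with rfl | ⟨j, rfl⟩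
  · rwa [ins_self]
  · rw [ins_succ]
    exact h j

theorem ins_nonneg {n : ℕ} {i : Fin (n + 1)} {z : Fin n → ℝ} (h : ∀ j, 0 ≤ z j)
    (k : Fin (n + 1)) : 0 ≤ ins i z k := by
  rcases Fin.eq_self_or_eq_succAbove i k with rfl | ⟨j, rfl⟩
  · rw [ins_self]
  · rw [ins_succ]
    exact h j

theorem AB.section {n : ℕ} {A : Set (Fin (n + 1) → ℝ)} (h : AB A) (i : Fin (n + 1)) :
    AB (sec i A) := by
  refine ⟨fun z hz j => ?_, fun z hz y hy0 hyz => ?_, ?_, ?_, ?_, ?_⟩
  · have := h.pos _ hz (i.succAbove j)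
    rwa [ins_succ] at this
  · refine h.down _ hz _ (ins_nonneg hy0) fun k => ?_
    refine ins_le (by rw [ins_self]) (fun j => ?_) k
    rw [ins_succ]
    exact hyz j
  · intro z hz y hy a b ha hb hab
    have h1 := h.conv hz hy ha hb hab
    show ins i (a • z + b • y) ∈ A
    convert h1 using 1
    funext k
    rcases Fin.eq_self_or_eq_succAbove i k with rfl | ⟨j, rfl⟩
    · simp [ins_self]
    · simp [ins_succ]
  · exact h.closed.preimage (cont_ins i)
  · obtain ⟨R, hR, hRA⟩ := h.bdd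
    refine ⟨R, hR, fun z hz j => ?_⟩
    have := hRA _ hz (i.succAbove j)
    rwa [ins_succ] at this
  · obtain ⟨r, hr, hrA⟩ := h.fat
    exact ⟨r, hr, h.down _ hrA _ (ins_nonneg fun _ => hr.le) (ins_le hr.le fun _ => le_rfl)⟩

theorem sec_pol {n : ℕ} {A : Set (Fin (n + 1) → ℝ)} (h : AB A) (i : Fin (n + 1)) :
    sec i (pol A) = pol (sec i A) := by
  ext y
  constructor
  · rintro ⟨h1, h2⟩
    refine ⟨fun j => ?_, fun z hz => ?_⟩
    · have := h1 (i.succAbove j)
      rwa [ins_succ] at this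
    · have := h2 _ hz
      rw [sum_ins] at this
      simpa only [ins_succ] using this
  · rintro ⟨h1, h2⟩
    refine ⟨ins_nonneg h1, fun x hx => ?_⟩
    rw [sum_ins]
    refine h2 (fun j => x (i.succAbove j)) ?_
    exact h.down x hx _ (ins_nonneg fun j => h.pos x hx _) (ins_le (h.pos x hx i) fun _ => le_rfl)

/-! ### measures -/

theorem AB.fin {p : ℕ} {A : Set (Fin p → ℝ)} (h : AB A) : volume A ≠ ⊤ := by
  obtain ⟨R, hR, hRA⟩ := h.bdd
  have h1 : A ⊆ Icc (0 : Fin p → ℝ) (fun _ => R) := fun x hx => ⟨h.pos x hx, hRA x hx⟩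
  exact ((measure_mono h1).trans_lt isCompact_Icc.measure_lt_top).ne

theorem AB.vol_pos {p : ℕ} {A : Set (Fin p → ℝ)} (h : AB A) : 0 < (volume A).toReal := by
  refine ENNReal.toReal_pos ?_ h.fin
  obtain ⟨r, hr, hrA⟩ := h.fat
  have h1 : Icc (0 : Fin p → ℝ) (fun _ => r) ⊆ A := fun x hx => h.down _ hrA x hx.1 hx.2
  have h2 : 0 < volume (Icc (0 : Fin p → ℝ) (fun _ => r)) := by
    rw [Real.volume_Icc_pi]
    simp only [Pi.zero_apply, sub_zero]
    exact pos_iff_ne_zero.2 (Finset.prod_ne_zero_iff.2 fun i _ => (ENNReal.ofReal_pos.2 hr).ne')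
  exact (h2.trans_le (measure_mono h1)).ne'

/-- the part in the open orthant -/
def op {p : ℕ} (A : Set (Fin p → ℝ)) : Set (Fin p → ℝ) := A ∩ {x | ∀ i, 0 < x i}

theorem vol_op {p : ℕ} {A : Set (Fin p → ℝ)} (h : AB A) : volume (op A) = volume A := by
  refine le_antisymm (measure_mono inter_subset_left) ?_
  have h1 : A ⊆ op A ∪ ⋃ i, {x : Fin p → ℝ | x i = 0} := by
    intro x hx
    by_cases h2 : ∀ i, 0 < x i
    · exact Or.inl ⟨hx, h2⟩
    · push Not at h2
      obtain ⟨i, hi⟩ := h2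
      exact Or.inr (mem_iUnion.2 ⟨i, le_antisymm hi (h.pos x hx i)⟩)
  refine (measure_mono h1).trans ((measure_union_le _ _).trans ?_)
  have h2 : volume (⋃ i, {x : Fin p → ℝ | x i = 0}) = 0 := by
    rw [measure_iUnion_null_iff]
    intro i
    exact Measure.pi_hyperplane (fun _ => volume) i 0
  rw [h2, add_zero]

theorem meas_op {p : ℕ} {A : Set (Fin p → ℝ)} (h : AB A) : MeasurableSet (op A) := by
  refine h.closed.measurableSet.inter ?_
  have e : {x : Fin p → ℝ | ∀ i, 0 < x i} = ⋂ i, {x | 0 < x i} := by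
    ext x
    simp
  rw [e]
  exact MeasurableSet.iInter fun i => measurableSet_lt measurable_const (measurable_pi_apply i)

/-- volume of a translated dilate -/
theorem vol_dil {n : ℕ} {c : ℝ} (hc : 0 < c) (v : Fin n → ℝ) (S : Set (Fin n → ℝ)) :
    volume {w | c⁻¹ • (w - v) ∈ S} = ENNReal.ofReal (c ^ n) * volume S := by
  have e : {w : Fin n → ℝ | c⁻¹ • (w - v) ∈ S} = (fun w => w - v) ⁻¹' ((fun u => c⁻¹ • u) ⁻¹' S) :=
    rfl
  have e2 : (fun w : Fin n → ℝ => w - v) = fun w => w + -v := by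
    funext w
    exact sub_eq_add_neg w v
  rw [e, e2, measure_preimage_add_right, Measure.addHaar_preimage_smul _ (inv_ne_zero hc.ne')]
  congr 2
  rw [Module.finrank_fintype_fun_eq_card, Fintype.card_fin, inv_pow, inv_inv, abs_of_pos (by positivity)]

/-- the cell in the product coordinates -/
def cell' {n : ℕ} (a : ℝ) (x' : Fin n → ℝ) (S : Set (Fin n → ℝ)) : Set (ℝ × (Fin n → ℝ)) :=
  {q | q.1 ∈ Ioo 0 a ∧ (1 - q.1 / a)⁻¹ • (q.2 - (q.1 / a) • x') ∈ S}

theorem meas_cell' {n : ℕ} (a : ℝ) (x' : Fin n → ℝ) {S : Set (Fin n → ℝ)} (hS : MeasurableSet S) :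
    MeasurableSet (cell' a x' S) := by
  have h1 : Measurable fun q : ℝ × (Fin n → ℝ) => (1 - q.1 / a)⁻¹ • (q.2 - (q.1 / a) • x') := by
    have h0 : Measurable fun q : ℝ × (Fin n → ℝ) => q.1 / a := measurable_fst.div_const a
    have h2 : Measurable fun q : ℝ × (Fin n → ℝ) => (1 - q.1 / a)⁻¹ :=
      (measurable_const.sub h0).inv
    exact h2.smul (measurable_snd.sub (h0.smul measurable_const))
  exact (measurableSet_Ioo.preimage measurable_fst).inter (h1 hS)

theorem int_pow {n : ℕ} {a : ℝ} (ha : 0 < a) :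
    ∫ s in Ioo 0 a, (1 - s / a) ^ n = a / (n + 1) := by
  rw [← integral_Ioc_eq_integral_Ioo, ← intervalIntegral.integral_of_le ha.le]
  have h1 : ∀ s ∈ uIcc 0 a, HasDerivAt (fun s => -(a / ((n : ℝ) + 1)) * (1 - s / a) ^ (n + 1))
      ((1 - s / a) ^ n) s := by
    intro s _
    have h2 : HasDerivAt (fun s : ℝ => 1 - s / a) (-(1 / a)) s := by
      simpa using ((hasDerivAt_id s).div_const a).const_sub 1
    have h3 := (h2.pow (n + 1)).const_mul (-(a / ((n : ℝ) + 1)))
    refine h3.congr_deriv ?_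
    rw [Nat.add_sub_cancel]
    push_cast
    field_simp
  rw [intervalIntegral.integral_eq_sub_of_hasDerivAt h1
    ((by fun_prop : Continuous fun s : ℝ => (1 - s / a) ^ n).intervalIntegrable 0 a)]
  simp [ha.ne']

theorem vol_cell' {n : ℕ} {a : ℝ} (ha : 0 < a) (x' : Fin n → ℝ) {S : Set (Fin n → ℝ)}
    (hS : MeasurableSet S) :
    (volume : Measure (ℝ × (Fin n → ℝ))) (cell' a x' S) =
      ENNReal.ofReal (a / (n + 1)) * volume S := by
  rw [Measure.volume_eq_prod, Measure.prod_apply (meas_cell' a x' hS)]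
  have h1 : ∀ s : ℝ, volume (Prod.mk s ⁻¹' cell' a x' S) =
      (Ioo 0 a).indicator (fun s => ENNReal.ofReal ((1 - s / a) ^ n) * volume S) s := by
    intro s
    by_cases hs : s ∈ Ioo 0 a
    · rw [indicator_of_mem hs]
      have h2 : 0 < 1 - s / a := by
        rw [sub_pos, div_lt_one ha]
        exact hs.2
      rw [← vol_dil h2 ((s / a) • x') S]
      congr 1
      ext w
      simp [cell', hs.1, hs.2]
    · rw [indicator_of_notMem hs]
      have e : Prod.mk s ⁻¹' cell' a x' S = ∅ := by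
        ext w
        simp only [cell', mem_preimage, mem_ofPred_eq, mem_empty_iff_false, iff_false]
        exact fun h => hs h.1
      rw [e, measure_empty]
  rw [lintegral_congr h1, lintegral_indicator measurableSet_Ioo, lintegral_mul_const _ (by fun_prop)]
  congr 1
  rw [← ofReal_integral_eq_lintegral_ofReal, int_pow ha]
  · exact (Continuous.integrableOn_Icc (by fun_prop)).mono_set Ioo_subset_Icc_self
  · refine (ae_restrict_iff' measurableSet_Ioo).2 (Filter.Eventually.of_forall fun s hs => ?_)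
    have : 0 ≤ 1 - s / a := by
      rw [sub_nonneg, div_le_one ha]
      exact hs.2.le
    positivity

/-- the cell -/
def cell {n : ℕ} (i : Fin (n + 1)) (x : Fin (n + 1) → ℝ) (A : Set (Fin (n + 1) → ℝ)) :
    Set (Fin (n + 1) → ℝ) :=
  {w | (w i, fun j => w (i.succAbove j)) ∈
    cell' (x i) (fun j => x (i.succAbove j)) (op (sec i A))}

theorem meas_cell {n : ℕ} (i : Fin (n + 1)) (x : Fin (n + 1) → ℝ) {A : Set (Fin (n + 1) → ℝ)}
    (h : AB A) : MeasurableSet (cell i x A) := by
  have h1 : Measurable fun w : Fin (n + 1) → ℝ => (w i, fun j => w (i.succAbove j)) := by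
    fun_prop
  exact h1 (meas_cell' _ _ (meas_op (h.section i)))

theorem vol_cell {n : ℕ} (i : Fin (n + 1)) {x : Fin (n + 1) → ℝ} {A : Set (Fin (n + 1) → ℝ)}
    (h : AB A) (hx : 0 < x i) :
    volume (cell i x A) = ENNReal.ofReal (x i / (n + 1)) * volume (sec i A) := by
  rw [← vol_op (h.section i), ← vol_cell' hx (fun j => x (i.succAbove j)) (meas_op (h.section i))]
  have h1 := (volume_preserving_piFinSuccAbove (fun _ : Fin (n + 1) => ℝ) i).measure_preimage
    (meas_cell' (x i) (fun j => x (i.succAbove j)) (meas_op (h.section i))).nullMeasurableSet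
  rw [← h1]
  rfl

theorem cell_spec {n : ℕ} {i : Fin (n + 1)} {x w : Fin (n + 1) → ℝ} {A : Set (Fin (n + 1) → ℝ)}
    (h : AB A) (hx : x ∈ A) (hw : w ∈ cell i x A) :
    w ∈ A ∧ ∀ j, w i * x (i.succAbove j) < w (i.succAbove j) * x i := by
  obtain ⟨⟨h0, h1⟩, h2, h3⟩ := hw
  simp only at h0 h1 h2 h3
  have ha : 0 < x i := h0.trans h1
  obtain ⟨t, ht⟩ : ∃ t, t = w i / x i := ⟨_, rfl⟩
  have ht0 : 0 ≤ t := by rw [ht]; positivity
  have ht1 : 0 < 1 - t := by
    rw [ht, sub_pos, div_lt_one ha]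
    exact h1
  rw [← ht] at h2 h3
  obtain ⟨z, hz⟩ : ∃ z : Fin n → ℝ, z = (1 - t)⁻¹ • ((fun j => w (i.succAbove j)) -
    t • fun j => x (i.succAbove j)) := ⟨_, rfl⟩
  rw [← hz] at h2 h3
  have hzw : ∀ j, w (i.succAbove j) = (1 - t) * z j + t * x (i.succAbove j) := by
    intro j
    have : z j = (1 - t)⁻¹ * (w (i.succAbove j) - t * x (i.succAbove j)) := by
      rw [hz]
      simp
    rw [this, mul_inv_cancel_left₀ ht1.ne']
    ring
  have hwi : w i = t * x i := by
    rw [ht, div_mul_cancel₀ _ ha.ne']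
  refine ⟨?_, fun j => ?_⟩
  · have h4 := h.conv h2 hx ht1.le ht0 (by ring)
    convert h4 using 1
    funext k
    rcases Fin.eq_self_or_eq_succAbove i k with rfl | ⟨j, rfl⟩
    · simp [ins_self, hwi]
    · simp [ins_succ, hzw]
  · have h4 : 0 < z j := h3 j
    rw [hwi, hzw j]
    nlinarith [mul_pos (mul_pos ht1 h4) ha]

/-- `∑ x i |A ∩ {x i = 0}| ≤ (n + 1) |A|` -/
theorem cell_sum {n : ℕ} {A : Set (Fin (n + 1) → ℝ)} (h : AB A) {x : Fin (n + 1) → ℝ}
    (hx : x ∈ A) :
    ∑ i, x i * (volume (sec i A)).toReal ≤ ((n : ℝ) + 1) * (volume A).toReal := by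
  classical
  have hpos := h.pos x hx
  obtain ⟨I, hI⟩ : ∃ I : Finset (Fin (n + 1)), ∀ i, i ∈ I ↔ 0 < x i :=
    ⟨Finset.univ.filter fun i => 0 < x i, fun i => by simp⟩
  have hdisj : ((I : Set (Fin (n + 1)))).PairwiseDisjoint fun i => cell i x A := by
    intro i hi k hk hik
    rw [Function.onFun, Set.disjoint_left]
    intro w hw1 hw2
    obtain ⟨j, hj⟩ := (Fin.eq_self_or_eq_succAbove i k).resolve_left fun e => hik e.symm
    obtain ⟨l, hl⟩ := (Fin.eq_self_or_eq_succAbove k i).resolve_left hik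
    have h1 := (cell_spec h hx hw1).2 j
    have h2 := (cell_spec h hx hw2).2 l
    rw [← hj] at h1
    rw [← hl] at h2
    linarith
  have h1 : volume (⋃ i ∈ I, cell i x A) = ∑ i ∈ I, volume (cell i x A) :=
    measure_biUnion_finset hdisj fun i _ => meas_cell i x h
  have h2 : (⋃ i ∈ I, cell i x A) ⊆ A := by
    intro w hw
    simp only [mem_iUnion] at hw
    obtain ⟨i, _, hw⟩ := hw
    exact (cell_spec h hx hw).1
  have h3 := measure_mono (μ := volume) h2
  rw [h1] at h3
  have h4 := ENNReal.toReal_mono h.fin h3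
  have hcell : ∀ i ∈ I, volume (cell i x A) =
      ENNReal.ofReal (x i / (n + 1)) * volume (sec i A) := fun i hi => vol_cell i h ((hI i).1 hi)
  rw [ENNReal.toReal_sum fun i hi => by
    rw [hcell i hi]
    exact ENNReal.mul_ne_top ENNReal.ofReal_ne_top (h.section i).fin] at h4
  have h5 : ∑ i ∈ I, (volume (cell i x A)).toReal =
      ∑ i ∈ I, x i / (n + 1) * (volume (sec i A)).toReal := by
    refine Finset.sum_congr rfl fun i hi => ?_
    rw [hcell i hi, ENNReal.toReal_mul, ENNReal.toReal_ofReal (by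
      have := hpos i
      positivity)]
  rw [h5] at h4
  have h6 : ∑ i, x i * (volume (sec i A)).toReal =
      ((n : ℝ) + 1) * ∑ i ∈ I, x i / (n + 1) * (volume (sec i A)).toReal := by
    rw [Finset.mul_sum]
    have h7 : ∀ i ∈ I, ((n : ℝ) + 1) * (x i / (n + 1) * (volume (sec i A)).toReal) =
        x i * (volume (sec i A)).toReal := by
      intro i _
      field_simp
    rw [Finset.sum_congr rfl h7]
    symm
    refine Finset.sum_subset (Finset.subset_univ _) fun i _ hi => ?_
    have : x i = 0 := le_antisymm (not_lt.1 fun h8 => hi ((hI i).2 h8)) (hpos i)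
    rw [this, zero_mul]
  rw [h6]
  exact mul_le_mul_of_nonneg_left h4 (by positivity)

/-- Saint-Raymond's inequality for anti-blocking bodies -/
theorem ab_product {p : ℕ} : ∀ {A : Set (Fin p → ℝ)}, AB A →
    1 / (p.factorial : ℝ) ≤ (volume A).toReal * (volume (pol A)).toReal := by
  induction p with
  | zero =>
    intro A h
    have h1 : A = univ := by
      obtain ⟨r, _, hr⟩ := h.fat
      ext x
      rw [Subsingleton.elim x fun _ => r]
      exact ⟨fun _ => mem_univ _, fun _ => hr⟩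
    have h2 : pol A = univ := by
      ext x
      simp [pol]
    have h3 : volume (univ : Set (Fin 0 → ℝ)) = 1 := by
      rw [volume_pi, Measure.pi_univ]
      simp
    rw [h2, h1, h3]
    simp
  | succ n ih =>
    intro A h
    have hP := h.polar
    have hV := h.vol_pos
    have hW := hP.vol_pos
    obtain ⟨V, hVd⟩ : ∃ V, V = (volume A).toReal := ⟨_, rfl⟩
    obtain ⟨W, hWd⟩ : ∃ W, W = (volume (pol A)).toReal := ⟨_, rfl⟩
    rw [← hVd] at hV ⊢
    rw [← hWd] at hW ⊢
    obtain ⟨a, ha⟩ : ∃ a : Fin (n + 1) → ℝ, a = fun i =>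
        (volume (sec i A)).toReal / (((n : ℝ) + 1) * V) := ⟨_, rfl⟩
    have haP : a ∈ pol A := by
      refine ⟨fun i => ?_, fun x hx => ?_⟩
      · rw [ha]
        positivity
      · have h1 := cell_sum h hx
        rw [← hVd] at h1
        have e : ∑ i, x i * a i =
            (∑ i, x i * (volume (sec i A)).toReal) / (((n : ℝ) + 1) * V) := by
          rw [ha, Finset.sum_div]
          exact Finset.sum_congr rfl fun i _ => by ring
        rw [e, div_le_one (by positivity)]
        exact h1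
    have h2 := cell_sum hP haP
    rw [← hWd] at h2
    have h3 : ∀ i, 1 / (n.factorial : ℝ) / (((n : ℝ) + 1) * V) ≤
        a i * (volume (sec i (pol A))).toReal := by
      intro i
      have h4 := ih (h.section i)
      rw [← sec_pol h] at h4
      rw [ha]
      simp only
      rw [div_mul_eq_mul_div]
      exact div_le_div_of_nonneg_right h4 (by positivity)
    have h4 := (Finset.sum_le_sum fun i (_ : i ∈ Finset.univ) => h3 i).trans h2
    rw [Finset.sum_const, Finset.card_univ, Fintype.card_fin, nsmul_eq_mul] at h4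
    rw [Nat.factorial_succ]
    push_cast at h4 ⊢
    have hf : (0 : ℝ) < (n.factorial : ℝ) := by positivity
    have e : ((n : ℝ) + 1) * (1 / (n.factorial : ℝ) / (((n : ℝ) + 1) * V)) =
        1 / (n.factorial * V) := by
      field_simp
    rw [e, div_le_iff₀ (by positivity)] at h4
    rw [div_le_iff₀ (by positivity)]
    linarith [show ((n : ℝ) + 1) * W * (n.factorial * V) =
      V * W * (((n : ℝ) + 1) * n.factorial) by ring]

end Vale.Agent.P248.H242
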