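import Vale.Agent.P254.H242.Num

/-!
P248 (helper242): the numerical inequality for bodies fibred by unconditional bodies.
-/

namespace Vale.Agent.P248.H242

open Vale.Agent.P254.H242 (ratio_le exp_small)

/-- the inequality for the largest `q` with `10 q + 84 ≤ p` -/
def GG (p : ℕ) : Prop :=
  Real.exp (77 / 200 * (p : ℝ) - 259 / 100) * ((p : ℝ) + 1) ^ (p + 1) <
    (4 : ℝ) ^ p * p.factorial

theorem log4 : (1.3862943606 : ℝ) < Real.log 4 ∧ Real.log 4 < 1.3862943616 := by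
  have h1 := Real.log_two_gt_d9
  have h2 := Real.log_two_lt_d9
  have e : Real.log 4 = 2 * Real.log 2 := by
    rw [show (4 : ℝ) = 2 ^ (2 : ℕ) by norm_num, Real.log_pow]
    norm_num
  rw [e]
  constructor <;> linarith

theorem exp_log4 : Real.exp (Real.log 4) = 4 := Real.exp_log (by norm_num)

theorem ratio_eq (p : ℕ) {y : ℝ} (hy : y = 1 / (2 * (p : ℝ) + 3)) :
    (1 + y) / (1 - y) = ((p : ℝ) + 2) / (p + 1) := by
  rw [hy]
  have h4 : (p : ℝ) + 1 ≠ 0 := by positivity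
  have h5 : 1 - 1 / (2 * (p : ℝ) + 3) = 2 * (p + 1) / (2 * p + 3) := by field_simp; ring
  have h6 : 1 + 1 / (2 * (p : ℝ) + 3) = 2 * (p + 2) / (2 * p + 3) := by field_simp; ring
  rw [h5, h6]
  field_simp

theorem two_p (p : ℕ) {y : ℝ} (hy : y = 1 / (2 * (p : ℝ) + 3)) :
    ((p + 2 : ℕ) : ℝ) = (1 / y + 1) / 2 := by
  rw [hy]
  push_cast
  field_simp
  ring

theorem rat_up {p : ℕ} (hp : 386 ≤ p) :
    Real.exp (77 / 200) * (((p : ℝ) + 2) / (p + 1)) ^ (p + 2) ≤ 4 := by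
  have hp' : (386 : ℝ) ≤ p := by exact_mod_cast hp
  obtain ⟨y, hy⟩ : ∃ y, y = 1 / (2 * (p : ℝ) + 3) := ⟨_, rfl⟩
  have h0 : 0 < y := by rw [hy]; positivity
  have h1 : y ≤ 1 / 775 := by
    rw [hy]
    exact one_div_le_one_div_of_le (by norm_num) (by linarith)
  have h2 := ratio_le h0.le (by linarith)
  rw [ratio_eq p hy] at h2
  have h3 := pow_le_pow_left₀ (by positivity) h2 (p + 2)
  rw [← Real.exp_nat_mul, two_p p hy] at h3
  have h4 : (1 / y + 1) / 2 * (2 * y + y ^ 3) = 1 + y + y ^ 2 / 2 + y ^ 3 / 2 := by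
    field_simp
    ring
  rw [h4] at h3
  refine (mul_le_mul_of_nonneg_left h3 (Real.exp_pos _).le).trans ?_
  rw [← Real.exp_add]
  refine le_of_le_of_eq (Real.exp_le_exp.2 ?_) exp_log4
  have h5 := log4.1
  have h6 : y ^ 2 ≤ (1 / 775) ^ 2 := pow_le_pow_left₀ h0.le h1 2
  have h7 : y ^ 3 ≤ (1 / 775) ^ 3 := pow_le_pow_left₀ h0.le h1 3
  norm_num at h1 h5 h6 h7 ⊢
  linarith

theorem exp_ratio {y : ℝ} (h0 : 0 ≤ y) (h1 : y ≤ 1 / 2) :
    Real.exp (2 * y) ≤ (1 + y) / (1 - y) := by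
  have h2 := Real.exp_bound' (x := 2 * y) (by linarith) (by linarith) (n := 4) (by norm_num)
  simp only [Finset.sum_range_succ, Finset.sum_range_zero] at h2
  rw [le_div_iff₀ (by linarith)]
  have h3 : Real.exp (2 * y) ≤ 1 + 2 * y + 2 * y ^ 2 + 4 / 3 * y ^ 3 + 5 / 6 * y ^ 4 := by
    refine h2.trans (le_of_eq ?_)
    norm_num [Nat.factorial]
    ring
  refine (mul_le_mul_of_nonneg_right h3 (by linarith)).trans ?_
  have h4 : 0 ≤ y ^ 3 := by positivity
  have h5 : 0 ≤ y ^ 4 := by positivity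
  have h6 : 0 ≤ y ^ 5 := by positivity
  nlinarith

theorem rat_down {p : ℕ} (hp : p ≤ 384) :
    4 ≤ Real.exp (77 / 200) * (((p : ℝ) + 2) / (p + 1)) ^ (p + 2) := by
  have hp' : (p : ℝ) ≤ 384 := by exact_mod_cast hp
  have hp0 : (0 : ℝ) ≤ p := Nat.cast_nonneg p
  obtain ⟨y, hy⟩ : ∃ y, y = 1 / (2 * (p : ℝ) + 3) := ⟨_, rfl⟩
  have h0 : 0 < y := by rw [hy]; positivity
  have h1 : 1 / 771 ≤ y := by
    rw [hy]
    exact one_div_le_one_div_of_le (by positivity) (by linarith)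
  have h1' : y ≤ 1 / 3 := by
    rw [hy]
    exact one_div_le_one_div_of_le (by norm_num) (by linarith)
  have h2 := exp_ratio h0.le (by linarith)
  rw [ratio_eq p hy] at h2
  have h3 := pow_le_pow_left₀ (Real.exp_pos _).le h2 (p + 2)
  rw [← Real.exp_nat_mul, two_p p hy] at h3
  have h4 : (1 / y + 1) / 2 * (2 * y) = 1 + y := by
    field_simp
  rw [h4] at h3
  refine le_trans ?_ (mul_le_mul_of_nonneg_left h3 (Real.exp_pos _).le)
  rw [← Real.exp_add]
  refine le_of_eq_of_le exp_log4.symm (Real.exp_le_exp.2 ?_)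
  have h5 := log4.2
  norm_num at h1 h5 ⊢
  linarith

theorem step_id (p : ℕ) :
    Real.exp (77 / 200 * ((p + 1 : ℕ) : ℝ) - 259 / 100) * (((p + 1 : ℕ) : ℝ) + 1) ^ (p + 1 + 1) =
      (Real.exp (77 / 200 * (p : ℝ) - 259 / 100) * ((p : ℝ) + 1) ^ (p + 1)) *
        (((p : ℝ) + 1) * (Real.exp (77 / 200) * (((p : ℝ) + 2) / (p + 1)) ^ (p + 2))) := by
  have h1 : 77 / 200 * ((p + 1 : ℕ) : ℝ) - 259 / 100 =
      (77 / 200 * (p : ℝ) - 259 / 100) + 77 / 200 := by
    push_cast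
    ring
  have h2 : (p : ℝ) + 1 ≠ 0 := by positivity
  rw [h1, Real.exp_add, div_pow]
  push_cast
  have h3 : (p : ℝ) + 1 + 1 = p + 2 := by ring
  have h4 : ((p : ℝ) + 1) ^ (p + 2) = ((p : ℝ) + 1) ^ (p + 1) * (p + 1) := by ring
  rw [h3, h4]
  field_simp

theorem fac_id (p : ℕ) : (4 : ℝ) ^ (p + 1) * ((p + 1).factorial : ℝ) =
    ((4 : ℝ) ^ p * p.factorial) * (((p : ℝ) + 1) * 4) := by
  rw [Nat.factorial_succ, pow_succ]
  push_cast
  ring

theorem up {p : ℕ} (hp : 386 ≤ p) (h : GG p) : GG (p + 1) := by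
  unfold GG at h ⊢
  rw [step_id, fac_id]
  have h1 : (0 : ℝ) < (p : ℝ) + 1 := by positivity
  have h2 := mul_le_mul_of_nonneg_left (rat_up hp) h1.le
  have h3 : 0 < Real.exp (77 / 200 * (p : ℝ) - 259 / 100) * ((p : ℝ) + 1) ^ (p + 1) := by
    positivity
  calc _ ≤ (Real.exp (77 / 200 * (p : ℝ) - 259 / 100) * ((p : ℝ) + 1) ^ (p + 1)) *
        (((p : ℝ) + 1) * 4) := mul_le_mul_of_nonneg_left h2 h3.le
    _ < _ := mul_lt_mul_of_pos_right h (by positivity)

theorem down {p : ℕ} (hp : p ≤ 384) (h : GG (p + 1)) : GG p := by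
  unfold GG at h ⊢
  rw [step_id, fac_id] at h
  have h1 : (0 : ℝ) < (p : ℝ) + 1 := by positivity
  have h2 := mul_le_mul_of_nonneg_left (rat_down hp) h1.le
  have h3 : 0 < Real.exp (77 / 200 * (p : ℝ) - 259 / 100) * ((p : ℝ) + 1) ^ (p + 1) := by
    positivity
  have h4 := lt_of_le_of_lt (mul_le_mul_of_nonneg_left h2 h3.le) h
  exact lt_of_mul_lt_mul_right h4 (by positivity)

theorem base385 : GG 385 := by
  unfold GG
  have h1 : Real.exp (77 / 200 * ((385 : ℕ) : ℝ) - 259 / 100) = Real.exp 1 ^ 145 * Real.exp 0.635 := by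
    rw [← Real.exp_nat_mul, ← Real.exp_add]
    norm_num
  have h2 : Real.exp 0.635 ≤ 1.88703 := exp_small (by norm_num) (by norm_num) (by norm_num)
  have h3 : Real.exp 1 ^ 145 ≤ 2.7182818286 ^ 145 :=
    pow_le_pow_left₀ (Real.exp_pos 1).le Real.exp_one_lt_d9.le 145
  rw [h1]
  have h4 : Real.exp 1 ^ 145 * Real.exp 0.635 ≤ 2.7182818286 ^ 145 * 1.88703 :=
    mul_le_mul h3 h2 (Real.exp_pos _).le (by positivity)
  refine lt_of_le_of_lt (mul_le_mul_of_nonneg_right h4 (by positivity)) ?_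
  have e1 : (((385 : ℕ) : ℝ) + 1) ^ (385 + 1) = ((386 : ℝ) ^ 193) ^ 2 := by
    rw [← pow_mul]
    congr 1
    norm_num
  have e2 : (4 : ℝ) ^ 385 = (4 ^ 192) ^ 2 * 4 := by
    rw [← pow_mul, ← pow_succ]
  rw [e1, e2]
  norm_num [Nat.factorial]

theorem base386 : GG 386 := by
  unfold GG
  have h1 : Real.exp (77 / 200 * ((386 : ℕ) : ℝ) - 259 / 100) = Real.exp 1 ^ 146 * Real.exp 0.02 := by
    rw [← Real.exp_nat_mul, ← Real.exp_add]
    norm_num
  have h2 : Real.exp 0.02 ≤ 1.020202 := exp_small (by norm_num) (by norm_num) (by norm_num)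
  have h3 : Real.exp 1 ^ 146 ≤ 2.7182818286 ^ 146 :=
    pow_le_pow_left₀ (Real.exp_pos 1).le Real.exp_one_lt_d9.le 146
  rw [h1]
  have h4 : Real.exp 1 ^ 146 * Real.exp 0.02 ≤ 2.7182818286 ^ 146 * 1.020202 :=
    mul_le_mul h3 h2 (Real.exp_pos _).le (by positivity)
  refine lt_of_le_of_lt (mul_le_mul_of_nonneg_right h4 (by positivity)) ?_
  have e1 : (((386 : ℕ) : ℝ) + 1) ^ (386 + 1) = ((387 : ℝ) ^ 193) ^ 2 * 387 := by
    rw [← pow_mul, ← pow_succ]
    congr 1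
    norm_num
  have e2 : (4 : ℝ) ^ 386 = (4 ^ 193) ^ 2 := by
    rw [← pow_mul]
  rw [e1, e2]
  norm_num [Nat.factorial]

theorem gg_all (p : ℕ) : GG p := by
  rcases Nat.lt_or_ge p 386 with hp | hp
  · have h1 : ∀ k : ℕ, k ≤ 385 → GG (385 - k) := by
      intro k
      induction k with
      | zero => intro _; exact base385
      | succ k ih =>
        intro hk
        have h2 := ih (by omega)
        have e : 385 - k = 385 - (k + 1) + 1 := by omega
        rw [e] at h2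
        exact down (by omega) h2
    have h2 := h1 (385 - p) (by omega)
    have e : 385 - (385 - p) = p := by omega
    rwa [e] at h2
  · induction p, hp using Nat.le_induction with
    | base => exact base386
    | succ p hp ih => exact up hp ih

/-- the numerical inequality for unconditional fibres -/
theorem num_unc {q p : ℕ} (h : 10 * q + 84 ≤ p) :
    Real.exp (7 / 20 * (((q + p : ℕ) : ℝ) + 1)) * (((p : ℝ) + 1) ^ (p + 1) / (p.factorial : ℝ) ^ 2) <
      (4 : ℝ) ^ p / p.factorial := by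
  have h1 := gg_all p
  unfold GG at h1
  have h2 : 10 * (q : ℝ) + 84 ≤ p := by exact_mod_cast h
  have h3 : Real.exp (7 / 20 * (((q + p : ℕ) : ℝ) + 1)) ≤
      Real.exp (77 / 200 * (p : ℝ) - 259 / 100) := by
    refine Real.exp_le_exp.2 ?_
    push_cast
    linarith
  have hf : (0 : ℝ) < (p.factorial : ℝ) := by positivity
  rw [← mul_div_assoc, div_lt_div_iff₀ (by positivity) hf]
  have h4 := lt_of_le_of_lt (mul_le_mul_of_nonneg_right h3
    (by positivity : (0 : ℝ) ≤ ((p : ℝ) + 1) ^ (p + 1))) h1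
  have h5 := mul_lt_mul_of_pos_right h4 hf
  calc _ < (4 : ℝ) ^ p * p.factorial * p.factorial := h5
    _ = _ := by ring

end Vale.Agent.P248.H242
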